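import Vale.Agent.P235.H56.DefsDec

/-!
# Every connected graph is an edge sum of 3-connected minors and minors on at most three vertices
-/

namespace Vale.Agent.P235.H191

open SimpleGraph Vale.Agent.P235.H134 Vale.Agent.P235.H56

theorem edgeSumOf_mono {P Q : ∀ (V : Type), SimpleGraph V → Prop} (h : ∀ V G, P V G → Q V G)
    {V : Type} {G : SimpleGraph V} (hE : EdgeSumOf P G) : EdgeSumOf Q G := by
  induction hE with
  | base hp => exact .base (h _ _ hp)
  | del _ hle ih => exact .del ih hle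
  | glue h1 h2 h3 h4 _ _ ih1 ih2 => exact .glue h1 h2 h3 h4 ih1 ih2

theorem conn_singleton {V : Type} (G : SimpleGraph V) (v : V) : (G.induce {v}).Connected := by
  have : Nonempty ({v} : Set V) := ⟨⟨v, rfl⟩⟩
  refine ⟨fun a b => ?_⟩
  have : a = b := Subtype.ext (a.2.trans b.2.symm)
  rw [this]

theorem minor_refl {V : Type} (G : SimpleGraph V) : IsMinor G G :=
  ⟨fun v => {v}, fun v => conn_singleton G v, fun _ _ h => Set.disjoint_singleton.2 h,
    fun a b h => ⟨a, rfl, b, rfl, h⟩⟩

theorem minor_induce {V : Type} (G : SimpleGraph V) (A : Set V) : IsMinor (G.induce A) G :=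
  ⟨fun v => {v.1}, fun v => conn_singleton G v.1,
    fun _ _ h => Set.disjoint_singleton.2 fun e => h (Subtype.ext e),
    fun a b h => ⟨a.1, rfl, b.1, rfl, h⟩⟩

theorem reachable_union {V X : Type} {G : SimpleGraph V} {K : SimpleGraph X} {ν : X → Set V}
    (h1 : ∀ a, (G.induce (ν a)).Connected)
    (h3 : ∀ a b, K.Adj a b → ∃ x ∈ ν a, ∃ y ∈ ν b, G.Adj x y) {S : Set X} {T : Set V}
    (hT : ∀ x ∈ S, ν x ⊆ T) {x y : S} (w : (K.induce S).Walk x y) :
    ∀ (u v : V) (hu : u ∈ ν x.1) (hv : v ∈ ν y.1),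
      (G.induce T).Reachable ⟨u, hT x.1 x.2 hu⟩ ⟨v, hT y.1 y.2 hv⟩ := by
  have hin : ∀ (x : S) (u v : V) (hu : u ∈ ν x.1) (hv : v ∈ ν x.1),
      (G.induce T).Reachable ⟨u, hT x.1 x.2 hu⟩ ⟨v, hT x.1 x.2 hv⟩ := by
    intro x u v hu hv
    exact ((h1 x.1).preconnected ⟨u, hu⟩ ⟨v, hv⟩).map (induceHomOfLE G (hT x.1 x.2)).toHom
  induction w with
  | nil => exact hin _
  | @cons a b c hab _ ih =>
    intro u v hu hv
    obtain ⟨p, hp, q, hq, hpq⟩ := h3 a.1 b.1 hab
    refine (hin a u p hu hp).trans (Reachable.trans ?_ (ih q v hq hv))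
    exact Adj.reachable (show (G.induce T).Adj ⟨p, hT a.1 a.2 hp⟩ ⟨q, hT b.1 b.2 hq⟩ from hpq)

theorem minor_trans {W X V : Type} {H : SimpleGraph W} {K : SimpleGraph X} {G : SimpleGraph V}
    (h : IsMinor H K) (h' : IsMinor K G) : IsMinor H G := by
  obtain ⟨μ, a1, a2, a3⟩ := h
  obtain ⟨ν, b1, b2, b3⟩ := h'
  refine ⟨fun a => ⋃ x ∈ μ a, ν x, fun a => ?_, fun a b hab => ?_, fun a b hab => ?_⟩
  · have hT : ∀ x ∈ μ a, ν x ⊆ ⋃ x ∈ μ a, ν x := fun x hx => Set.subset_biUnion_of_mem hx
    obtain ⟨⟨x0, hx0⟩⟩ := (a1 a).nonempty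
    obtain ⟨⟨v0, hv0⟩⟩ := (b1 x0).nonempty
    have : Nonempty (⋃ x ∈ μ a, ν x : Set V) := ⟨⟨v0, hT x0 hx0 hv0⟩⟩
    refine ⟨fun u v => ?_⟩
    obtain ⟨u, hu⟩ := u
    obtain ⟨v, hv⟩ := v
    obtain ⟨x, hx, hux⟩ := Set.mem_iUnion₂.1 hu
    obtain ⟨y, hy, hvy⟩ := Set.mem_iUnion₂.1 hv
    obtain ⟨w⟩ := (a1 a).preconnected ⟨x, hx⟩ ⟨y, hy⟩
    exact reachable_union b1 b3 hT w u v hux hvy
  · rw [Set.disjoint_left]
    intro z hz hz'
    obtain ⟨x, hx, hzx⟩ := Set.mem_iUnion₂.1 hz
    obtain ⟨y, hy, hzy⟩ := Set.mem_iUnion₂.1 hz'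
    by_cases hxy : x = y
    · subst hxy
      exact Set.disjoint_left.1 (a2 a b hab) hx hy
    · exact Set.disjoint_left.1 (b2 x y hxy) hzx hzy
  · obtain ⟨x, hx, y, hy, hxy⟩ := a3 a b hab
    obtain ⟨p, hp, q, hq, hpq⟩ := b3 x y hxy
    exact ⟨p, Set.mem_iUnion₂.2 ⟨x, hx, hp⟩, q, Set.mem_iUnion₂.2 ⟨y, hy, hq⟩, hpq⟩

theorem walk_ind {V : Type} {G : SimpleGraph V} (P : V → Prop) {u s : V} (w : G.Walk u s)
    (h0 : P s) (h1 : ∀ u v, G.Adj u v → P v → P u) : P u := by
  induction w with
  | nil => exact h0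
  | cons h _ ih => exact h1 _ _ h (ih h0)

/-- `C ∪ {s, t}` is connected when all outer neighbours of `C` are `s`, `t` and `st` is an edge -/
theorem conn_side {V : Type} {G H : SimpleGraph V} (hG : G.Connected) (hle : G ≤ H) {C : Set V}
    {s t : V} (hcl : ∀ u ∈ C, ∀ v, G.Adj u v → v ∈ C ∨ v = s ∨ v = t)
    (hst : s = t ∨ H.Adj s t) : (H.induce {x | x ∈ C ∨ x = s ∨ x = t}).Connected := by
  have hsA : s ∈ {x | x ∈ C ∨ x = s ∨ x = t} := Or.inr (Or.inl rfl)
  have key : ∀ (u : V) (hu : u ∈ {x | x ∈ C ∨ x = s ∨ x = t}),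
      (H.induce {x | x ∈ C ∨ x = s ∨ x = t}).Reachable ⟨u, hu⟩ ⟨s, hsA⟩ := by
    intro u
    obtain ⟨w⟩ := hG.preconnected u s
    refine walk_ind (fun u => ∀ (hu : u ∈ {x | x ∈ C ∨ x = s ∨ x = t}),
      (H.induce {x | x ∈ C ∨ x = s ∨ x = t}).Reachable ⟨u, hu⟩ ⟨s, hsA⟩) w
      (fun _ => Reachable.refl _) ?_
    intro u v huv ih hu
    rcases hu with hu' | hu' | hu'
    · have hv : v ∈ {x | x ∈ C ∨ x = s ∨ x = t} := hcl u hu' v huv
      exact (Adj.reachable (show (H.induce {x | x ∈ C ∨ x = s ∨ x = t}).Adj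
        ⟨u, Or.inl hu'⟩ ⟨v, hv⟩ from hle huv)).trans (ih hv)
    · subst hu'; exact Reachable.refl _
    · subst hu'
      rcases hst with h | h
      · subst h; exact Reachable.refl _
      · exact (Adj.reachable (show (H.induce {x | x ∈ C ∨ x = s ∨ x = u}).Adj ⟨s, hsA⟩
          ⟨u, Or.inr (Or.inr rfl)⟩ from h)).symm
  have : Nonempty ({x | x ∈ C ∨ x = s ∨ x = t} : Set V) := ⟨⟨s, hsA⟩⟩
  exact ⟨fun a b => (key a.1 a.2).trans (key b.1 b.2).symm⟩

/-- one side of a 2-separation, with the virtual edge, is a minor -/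
theorem minor_side {V : Type} {G : SimpleGraph V} (h2 : Conn2 G) {s t : V} (hne : s ≠ t)
    {C : Set V} (hs : s ∉ C)
    (hcl : ∀ u ∈ C, ∀ v, G.Adj u v → v ∈ C ∨ v = s ∨ v = t) {y : V} (hyC : y ∉ C) (hys : y ≠ s)
    (hyt : y ≠ t) : IsMinor ((G ⊔ edge s t).induce {x | x ∈ C ∨ x = s ∨ x = t}) G := by
  classical
  set K : Set V := {v | Relation.ReflTransGen (fun a b => G.Adj a b ∧ b ≠ s ∧ b ≠ t) y v} with hK
  have hyK : y ∈ K := Relation.ReflTransGen.refl
  have hKcl : ∀ u ∈ K, ∀ v, G.Adj u v → v ∈ K ∨ v = s ∨ v = t := by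
    intro u hu v huv
    by_cases h1 : v = s
    · exact Or.inr (Or.inl h1)
    by_cases h3 : v = t
    · exact Or.inr (Or.inr h3)
    exact Or.inl (Relation.ReflTransGen.tail hu ⟨huv, h1, h3⟩)
  have hKst : ∀ u ∈ K, u ≠ s ∧ u ≠ t := by
    intro u hu
    rcases Relation.ReflTransGen.cases_tail hu with h | ⟨_, _, h⟩
    · rw [h]; exact ⟨hys, hyt⟩
    · exact h.2
  have hKC : ∀ u ∈ K, u ∉ C := by
    intro u hu
    induction hu with
    | refl => exact hyC
    | @tail b c hb hbc ih =>
      intro hc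
      have hbst := hKst b hb
      rcases hcl c hc b hbc.1.symm with h | h | h
      · exact ih h
      · exact hbst.1 h
      · exact hbst.2 h
  have hKconn : (G.induce K).Connected := by
    have key : ∀ (u : V) (hu : u ∈ K), (G.induce K).Reachable ⟨y, hyK⟩ ⟨u, hu⟩ := by
      intro u hu
      induction hu with
      | refl => exact Reachable.refl _
      | @tail b c hb hbc ih =>
        exact ih.trans (Adj.reachable (show (G.induce K).Adj ⟨b, hb⟩ ⟨c, hb.tail hbc⟩ from hbc.1))
    have : Nonempty K := ⟨⟨y, hyK⟩⟩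
    exact ⟨fun a b => (key a.1 a.2).symm.trans (key b.1 b.2)⟩
  obtain ⟨p, hp, hps⟩ : ∃ p ∈ K, G.Adj p s := by
    by_contra hc
    push Not at hc
    rcases h2 t K ⟨y, hyK⟩ (fun h => (hKst t h).2 rfl) (fun u hu v huv => by
      rcases hKcl u hu v huv with h | h | h
      · exact Or.inl h
      · exact absurd (h ▸ huv) (hc u hu)
      · exact Or.inr h) s with h | h
    · exact (hKst s h).1 rfl
    · exact hne h
  obtain ⟨q, hq, hqt⟩ : ∃ q ∈ K, G.Adj q t := by
    by_contra hc
    push Not at hc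
    rcases h2 s K ⟨y, hyK⟩ (fun h => (hKst s h).1 rfl) (fun u hu v huv => by
      rcases hKcl u hu v huv with h | h | h
      · exact Or.inl h
      · exact Or.inr h
      · exact absurd (h ▸ huv) (hc u hu)) t with h | h
    · exact (hKst t h).2 rfl
    · exact hne h.symm
  have hSconn : (G.induce (insert s K)).Connected := by
    have key : ∀ (u : V) (hu : u ∈ insert s K),
        (G.induce (insert s K)).Reachable ⟨p, Or.inr hp⟩ ⟨u, hu⟩ := by
      intro u hu
      rcases hu with hu | hu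
      · subst hu
        exact Adj.reachable (show (G.induce (insert u K)).Adj ⟨p, Or.inr hp⟩ ⟨u, Or.inl rfl⟩
          from hps)
      · exact (hKconn.preconnected ⟨p, hp⟩ ⟨u, hu⟩).map
          (induceHomOfLE G (Set.subset_insert s K)).toHom
    have : Nonempty (insert s K : Set V) := ⟨⟨p, Or.inr hp⟩⟩
    exact ⟨fun a b => (key a.1 a.2).symm.trans (key b.1 b.2)⟩
  refine ⟨fun a => if a.1 = s then insert s K else {a.1}, fun a => ?_, fun a b hab => ?_,
    fun a b hab => ?_⟩
  · show (G.induce (if a.1 = s then insert s K else {a.1} : Set V)).Connected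
    by_cases ha : a.1 = s
    · have e : (if a.1 = s then insert s K else {a.1} : Set V) = insert s K := if_pos ha
      rw [e]; exact hSconn
    · have e : (if a.1 = s then insert s K else {a.1} : Set V) = {a.1} := if_neg ha
      rw [e]; exact conn_singleton G a.1
  · have hx : ∀ x : V, x ∈ {x | x ∈ C ∨ x = s ∨ x = t} → x ≠ s → x ∉ (insert s K : Set V) := by
      rintro x (hx | hx | hx) hxs (h | h)
      · exact hxs h
      · exact hKC x h hx
      · exact hxs h
      · exact hxs hx
      · exact hxs h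
      · exact (hKst x h).2 hx
    by_cases ha : a.1 = s
    · have hb : b.1 ≠ s := fun h => hab (Subtype.ext (ha.trans h.symm))
      simp only [ha, hb, if_true, if_false]
      exact Set.disjoint_singleton_right.2 (hx b.1 b.2 hb)
    · simp only [ha, if_false]
      by_cases hb : b.1 = s
      · simp only [hb, if_true]
        exact Set.disjoint_singleton_left.2 (hx a.1 a.2 ha)
      · simp only [hb, if_false]
        exact Set.disjoint_singleton.2 fun e => hab (Subtype.ext e)
  · have hin : ∀ a : {x | x ∈ C ∨ x = s ∨ x = t},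
        a.1 ∈ (if a.1 = s then insert s K else {a.1} : Set V) := by
      intro a
      by_cases ha : a.1 = s
      · simp only [ha, if_true]; exact Or.inl rfl
      · simp only [ha, if_false]; exact rfl
    have hab' : G.Adj a.1 b.1 ∨ (edge s t).Adj a.1 b.1 := hab
    rcases hab' with h | h
    · exact ⟨a.1, hin a, b.1, hin b, h⟩
    · rw [edge_adj] at h
      rcases h.1 with ⟨h3, h4⟩ | ⟨h3, h4⟩
      · refine ⟨q, ?_, b.1, hin b, ?_⟩
        · simp only [h3, if_true]; exact Or.inr hq
        · rw [h4]; exact hqt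
      · refine ⟨a.1, hin a, q, ?_, ?_⟩
        · simp only [h4, if_true]; exact Or.inr hq
        · rw [h3]; exact hqt.symm

theorem dec_aux (n : ℕ) : ∀ (V : Type) [Finite V] (G : SimpleGraph V), Nat.card V = n →
    G.Connected →
    EdgeSumOf (fun W H => Finite W ∧ H.Connected ∧ IsMinor H G ∧ (Conn3 H ∨ Nat.card W ≤ 3)) G := by
  induction n using Nat.strong_induction_on with
  | _ n ih =>
    intro V _ G hn hG
    classical
    by_cases h3 : Conn3 G ∨ Nat.card V ≤ 3
    · exact .base ⟨inferInstance, hG, minor_refl G, h3⟩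
    push Not at h3
    obtain ⟨h3, h4⟩ := h3
    have side : ∀ (H : SimpleGraph V) (A : Set V) (y : V), y ∉ A → (H.induce A).Connected →
        IsMinor (H.induce A) G →
        EdgeSumOf (fun W H => Finite W ∧ H.Connected ∧ IsMinor H G ∧ (Conn3 H ∨ Nat.card W ≤ 3))
          (H.induce A) := by
      intro H A y hy hc hm
      have hlt : Nat.card A < n := by
        rw [← hn, Nat.card_coe_set_eq, ← Set.ncard_univ]
        exact Set.ncard_lt_ncard (Set.ssubset_univ_iff.2 fun h => hy (h ▸ trivial))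
          (Set.toFinite _)
      exact edgeSumOf_mono (fun W K h => ⟨h.1, h.2.1, minor_trans h.2.2.1 hm, h.2.2.2⟩)
        (ih _ hlt A (H.induce A) rfl hc)
    by_cases h2 : Conn2 G
    · unfold Conn3 at h3
      push Not at h3
      obtain ⟨s, t, C, hne, hs, ht, hcl, y, hyC, hys, hyt⟩ := h3
      have hst : s ≠ t := by
        rintro rfl
        rcases h2 s C hne hs (fun u hu v huv => (hcl u hu v huv).imp_right fun h => h.elim id id)
          y with h | h
        exacts [hyC h, hys h]
      obtain ⟨c, hc⟩ := hne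
      have hDcl : ∀ u ∈ {x | x ∉ C ∧ x ≠ s ∧ x ≠ t}, ∀ v, G.Adj u v →
          v ∈ {x | x ∉ C ∧ x ≠ s ∧ x ≠ t} ∨ v = s ∨ v = t := by
        rintro u ⟨hu1, hu2, hu3⟩ v huv
        by_cases hv : v ∈ C
        · rcases hcl v hv u huv.symm with h | h | h
          exacts [absurd h hu1, absurd h hu2, absurd h hu3]
        by_cases hvs : v = s
        · exact Or.inr (Or.inl hvs)
        by_cases hvt : v = t
        · exact Or.inr (Or.inr hvt)
        exact Or.inl ⟨hv, hvs, hvt⟩
      have hle : G ≤ G ⊔ edge s t := le_sup_left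
      have hadj : (G ⊔ edge s t).Adj s t := Or.inr ((edge_adj s t s t).2 ⟨Or.inl ⟨rfl, rfl⟩, hst⟩)
      have hcD : c ∉ {x | x ∉ C ∧ x ≠ s ∧ x ≠ t} := fun h => h.1 hc
      have hcs : c ≠ s := fun h => hs (h ▸ hc)
      have hct : c ≠ t := fun h => ht (h ▸ hc)
      refine .del (.glue (s := s) (t := t) (A := {x | x ∈ C ∨ x = s ∨ x = t})
        (B := {x | x ∈ {x | x ∉ C ∧ x ≠ s ∧ x ≠ t} ∨ x = s ∨ x = t}) hadj ?_ ?_ ?_
        (side _ _ y ?_ (conn_side hG hle hcl (Or.inr hadj))
          (minor_side h2 hst hs hcl hyC hys hyt))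
        (side _ _ c ?_ (conn_side hG hle hDcl (Or.inr hadj))
          (minor_side h2 hst (fun h => h.2.1 rfl) hDcl hcD hcs hct))) hle
      · ext x
        simp only [Set.mem_union, Set.mem_ofPred_eq, Set.mem_univ, iff_true]
        tauto
      · ext x
        simp only [Set.mem_inter_iff, Set.mem_ofPred_eq, Set.mem_insert_iff, Set.mem_singleton_iff]
        tauto
      · intro a b ha hb hab
        simp only [Set.mem_ofPred_eq, not_or] at ha hb
        have haC : a ∈ C := by
          by_contra h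
          exact ha.1 ⟨h, ha.2.1, ha.2.2⟩
        have hab' : G.Adj a b := by
          rcases hab with h | h
          · exact h
          · rw [edge_adj] at h
            rcases h.1 with ⟨h5, h6⟩ | ⟨h5, h6⟩
            exacts [absurd h5 ha.2.1, absurd h5 ha.2.2]
        rcases hcl a haC b hab' with h | h | h
        exacts [hb.1 h, hb.2.1 h, hb.2.2 h]
      · rintro (h | h | h)
        exacts [hyC h, hys h, hyt h]
      · rintro (h | h | h)
        exacts [hcD h, hcs h, hct h]
    · unfold Conn2 at h2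
      push Not at h2
      obtain ⟨s, C, hne, hs, hcl, y, hyC, hys⟩ := h2
      have step : ∀ C D : Set V, s ∉ C → s ∉ D → (∀ x, x ∈ C ∨ x ∈ D ∨ x = s) →
          (∀ x ∈ C, x ∉ D) → (∀ u ∈ C, ∀ v, G.Adj u v → v ∈ C ∨ v = s) →
          (∀ u ∈ D, ∀ v, G.Adj u v → v ∈ D ∨ v = s) → C.Nonempty → 2 ≤ D.ncard →
          EdgeSumOf (fun W H => Finite W ∧ H.Connected ∧ IsMinor H G ∧
            (Conn3 H ∨ Nat.card W ≤ 3)) G := by
        intro C D hsC hsD hall hdis hC hD hCne hD2
        obtain ⟨d, hd⟩ : D.Nonempty := by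
          rw [← Set.ncard_pos (Set.toFinite _)]; omega
        obtain ⟨t, htD, hts⟩ : ∃ t ∈ D, G.Adj t s := by
          by_contra hc
          push Not at hc
          obtain ⟨w⟩ := hG.preconnected d s
          refine walk_ind (fun u => u ∉ D) w hsD ?_ hd
          intro u v huv hv hu
          rcases hD u hu v huv with h | h
          · exact hv h
          · exact hc u hu (h ▸ huv)
        obtain ⟨y, hyD, hyt⟩ : ∃ y ∈ D, y ≠ t := by
          by_contra hc
          push Not at hc
          have h5 : D ⊆ {t} := fun x hx => hc x hx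
          have h6 := Set.ncard_le_ncard h5 (Set.toFinite _)
          rw [Set.ncard_singleton] at h6
          omega
        obtain ⟨c, hc⟩ := hCne
        refine .glue (s := s) (t := t) (A := {x | x ∈ C ∨ x = s ∨ x = t})
          (B := {x | x ∈ D ∨ x = s ∨ x = s}) hts.symm ?_ ?_ ?_
          (side _ _ y ?_ (conn_side hG le_rfl (fun u hu v huv => (hC u hu v huv).imp_right Or.inl)
            (Or.inr hts.symm)) (minor_induce G _))
          (side _ _ c ?_ (conn_side hG le_rfl (fun u hu v huv => (hD u hu v huv).imp_right Or.inl)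
            (Or.inl rfl)) (minor_induce G _))
        · ext x
          have := hall x
          simp only [Set.mem_union, Set.mem_ofPred_eq, Set.mem_univ, iff_true]
          tauto
        · ext x
          have := hdis x
          simp only [Set.mem_inter_iff, Set.mem_ofPred_eq, Set.mem_insert_iff,
            Set.mem_singleton_iff]
          constructor
          · tauto
          · rintro (h | h)
            · exact ⟨Or.inr (Or.inl h), Or.inr (Or.inl h)⟩
            · exact ⟨Or.inr (Or.inr h), Or.inl (h ▸ htD)⟩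
        · intro a b ha hb hab
          simp only [Set.mem_ofPred_eq, not_or] at ha hb
          have haC : a ∈ C := by
            rcases hall a with h | h | h
            exacts [h, absurd h ha.1, absurd h ha.2.1]
          rcases hC a haC b hab with h | h
          exacts [hb.1 h, hb.2.1 h]
        · rintro (h | h | h)
          exacts [hdis y h hyD, hsD (h ▸ hyD), hyt h]
        · rintro (h | h | h)
          exacts [hdis c hc h, hsC (h ▸ hc), hsC (h ▸ hc)]
      have hDcl : ∀ u ∈ {x | x ∉ C ∧ x ≠ s}, ∀ v, G.Adj u v →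
          v ∈ {x | x ∉ C ∧ x ≠ s} ∨ v = s := by
        rintro u ⟨hu1, hu2⟩ v huv
        by_cases hv : v ∈ C
        · rcases hcl v hv u huv.symm with h | h
          exacts [absurd h hu1, absurd h hu2]
        by_cases hvs : v = s
        · exact Or.inr hvs
        exact Or.inl ⟨hv, hvs⟩
      have hsum : Nat.card V ≤ C.ncard + {x | x ∉ C ∧ x ≠ s}.ncard + 1 := by
        have h5 : (Set.univ : Set V) ⊆ (C ∪ {x | x ∉ C ∧ x ≠ s}) ∪ {s} := by
          intro x _
          by_cases h1 : x ∈ C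
          · exact Or.inl (Or.inl h1)
          by_cases h6 : x = s
          · exact Or.inr h6
          exact Or.inl (Or.inr ⟨h1, h6⟩)
        have h6 := Set.ncard_le_ncard h5 (Set.toFinite _)
        rw [Set.ncard_univ] at h6
        have h7 := Set.ncard_union_le (C ∪ {x | x ∉ C ∧ x ≠ s}) {s}
        have h8 := Set.ncard_union_le C {x | x ∉ C ∧ x ≠ s}
        rw [Set.ncard_singleton] at h7
        omega
      by_cases hD2 : 2 ≤ {x | x ∉ C ∧ x ≠ s}.ncard
      · refine step C {x | x ∉ C ∧ x ≠ s} hs (fun h => h.2 rfl) ?_ (fun x hx h => h.1 hx) hcl hDcl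
          hne hD2
        intro x
        by_cases h1 : x ∈ C
        · exact Or.inl h1
        by_cases h6 : x = s
        · exact Or.inr (Or.inr h6)
        exact Or.inr (Or.inl ⟨h1, h6⟩)
      · refine step {x | x ∉ C ∧ x ≠ s} C (fun h => h.2 rfl) hs ?_ (fun x hx h => hx.1 h) hDcl hcl
          ⟨y, hyC, hys⟩ (by omega)
        intro x
        by_cases h1 : x ∈ C
        · exact Or.inr (Or.inl h1)
        by_cases h6 : x = s
        · exact Or.inr (Or.inr h6)
        exact Or.inl ⟨h1, h6⟩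

/-- **(Dec)** -/
theorem decStmt : DecStmt := fun V _ G hG => dec_aux (Nat.card V) V G rfl hG

end Vale.Agent.P235.H191
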